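import Mathlib
import Vale.Agent.Lib.P050.Components

namespace Vale.Agent.Results.P050.ChainTarget

/-- Sidorenko's inequality `t(H,G) ≥ p(G)^{|E(H)|}` for every bipartite graph `H`
and every chain graph `G`: a bipartite graph with parts `X`, `Y` in which the neighbourhoods
of the vertices of `X` are totally ordered by inclusion. -/
theorem result {V W : Type*} [Fintype V] [Fintype W] [Nonempty W]
    (H : SimpleGraph V) (G : SimpleGraph W) (hH : H.IsBipartite)
    (X Y : Set W) (hG : G.IsBipartiteWith X Y)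
    (hnest : ∀ x ∈ X, ∀ x' ∈ X,
      G.neighborSet x ⊆ G.neighborSet x' ∨ G.neighborSet x' ⊆ G.neighborSet x) :
    (2 * (G.edgeSet.ncard : ℝ) / (Fintype.card W : ℝ) ^ 2) ^ H.edgeSet.ncard
      ≤ (Nat.card (H →g G) : ℝ) / (Fintype.card W : ℝ) ^ Fintype.card V :=
  Vale.Agent.Lib.P050.sidorenko_chain_aux G X Y hG hnest _ V H rfl hH

end Vale.Agent.Results.P050.ChainTarget
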